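import Vale.Agent.P211.Cert.Pair.Data.PairAxisY.Base

/-!
P211, data: the root `axisY` of the form across the gradient, generated from the exact search.
-/

namespace Vale.Agent.P211.Cert.Pair.PairAxisY

open Vale.Agent.P098.Check6 (Face St ofChunks reach)
open Vale.Agent.P098.Cert6.Kron (RootPar)

/-- A subtree. -/
def tree0 : Check.Tree Check.Leaf :=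
  .node 0
    (.node 0
    (.node 0
    (.node 0
    (.node 0
    (.node 0
    (.node 1
    (.node 0
    (.leaf (.psd ⟨⟨⟨1024, 0, 0⟩, ⟨(-29), 1, 0⟩, ⟨0, 0, 1⟩⟩, ⟨⟨1, 0, 0⟩, ⟨29, 1024, 0⟩, ⟨0, 0, 1024⟩⟩, 1024, ⟨164, 4096, 1⟩⟩))
    (.leaf (.psd ⟨⟨⟨1024, 0, 0⟩, ⟨(-54), 1, 0⟩, ⟨0, 0, 1⟩⟩, ⟨⟨1, 0, 0⟩, ⟨54, 1024, 0⟩, ⟨0, 0, 1024⟩⟩, 1024, ⟨74, 4096, 1⟩⟩)))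
    (.node 0
    (.leaf (.psd ⟨⟨⟨1024, 0, 0⟩, ⟨(-30), 1, 0⟩, ⟨0, 0, 1⟩⟩, ⟨⟨1, 0, 0⟩, ⟨30, 1024, 0⟩, ⟨0, 0, 1024⟩⟩, 1024, ⟨203, 4096, 1⟩⟩))
    (.leaf (.psd ⟨⟨⟨1024, 0, 0⟩, ⟨(-55), 1, 0⟩, ⟨0, 0, 1⟩⟩, ⟨⟨1, 0, 0⟩, ⟨55, 1024, 0⟩, ⟨0, 0, 1024⟩⟩, 1024, ⟨84, 4096, 1⟩⟩))))
    (.leaf (.psd ⟨⟨⟨1024, 0, 0⟩, ⟨(-97), 1, 0⟩, ⟨0, 0, 1⟩⟩, ⟨⟨1, 0, 0⟩, ⟨97, 1024, 0⟩, ⟨0, 0, 1024⟩⟩, 1024, ⟨43, 4096, 1⟩⟩)))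
    (.leaf (.psd ⟨⟨⟨1024, 0, 0⟩, ⟨(-192), 1, 0⟩, ⟨0, 0, 1⟩⟩, ⟨⟨1, 0, 0⟩, ⟨192, 1024, 0⟩, ⟨0, 0, 1024⟩⟩, 1024, ⟨24, 4096, 1⟩⟩)))
    (.leaf (.psd ⟨⟨⟨1024, 0, 0⟩, ⟨(-372), 1, 0⟩, ⟨0, 0, 1⟩⟩, ⟨⟨1, 0, 0⟩, ⟨372, 1024, 0⟩, ⟨0, 0, 1024⟩⟩, 1024, ⟨13, 4096, 1⟩⟩)))
    (.leaf (.psd ⟨⟨⟨1024, 0, 0⟩, ⟨(-381), 1, 0⟩, ⟨0, 0, 1⟩⟩, ⟨⟨1, 0, 0⟩, ⟨381, 1024, 0⟩, ⟨0, 0, 1024⟩⟩, 1024, ⟨5, 4096, 1⟩⟩)))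
    (.leaf (.psd ⟨⟨⟨1024, 0, 0⟩, ⟨9, 1, 0⟩, ⟨0, 0, 1⟩⟩, ⟨⟨1, 0, 0⟩, ⟨(-9), 1024, 0⟩, ⟨0, 0, 1024⟩⟩, 1024, ⟨4, 4096, 1⟩⟩)))
    (.leaf (.psd ⟨⟨⟨1024, 0, 0⟩, ⟨501, 1, 0⟩, ⟨0, 0, 1⟩⟩, ⟨⟨1, 0, 0⟩, ⟨(-501), 1024, 0⟩, ⟨0, 0, 1024⟩⟩, 1024, ⟨4, 4096, 1⟩⟩))

theorem chunk0 : Check.Good ⟨false, false, false⟩ cfg (reach cfg base []) :=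
  Check.check_sound tree0 (by decide +kernel)

end Vale.Agent.P211.Cert.Pair.PairAxisY
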